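import Vale.Agent.P116.Conf
import Vale.Agent.P116.Reflect

/-!
P116: boundary behaviour of a bounded injective map at a straight piece of the boundary, from a
barrier for the logarithm of its modulus and the Schwarz lemma.
-/

open Complex Metric Filter Set Topology
open scoped Real ComplexConjugate NNReal

namespace Vale.Agent.P116

/-- The upper box of size `s` at the origin. -/
def Box (s : ℝ) : Set ℂ := {z | |z.re| < s ∧ 0 < z.im ∧ z.im < s}

lemma isOpen_Box (s : ℝ) : IsOpen (Box s) :=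
  (isOpen_lt (continuous_abs.comp continuous_re) continuous_const).inter
    ((isOpen_lt continuous_const continuous_im).inter (isOpen_lt continuous_im continuous_const))

lemma convex_Box (s : ℝ) : Convex ℝ (Box s) := by
  intro x hx y hy a b ha hb hab
  obtain ⟨hx1, hx2, hx3⟩ := hx
  obtain ⟨hy1, hy2, hy3⟩ := hy
  rw [abs_lt] at hx1 hy1
  simp only [Box, mem_ofPred_eq, add_re, add_im, smul_re, smul_im, smul_eq_mul, abs_lt]
  refine ⟨⟨?_, ?_⟩, ?_, ?_⟩
  all_goals rcases eq_or_lt_of_le ha with rfl | ha'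
  all_goals first
    | (simp only [zero_add] at hab; subst hab; simp only [zero_mul, zero_add, one_mul]; linarith)
    | nlinarith

lemma Box_mono {s t : ℝ} (h : s ≤ t) : Box s ⊆ Box t := fun _ hz =>
  ⟨hz.1.trans_le h, hz.2.1, hz.2.2.trans_le h⟩

/-- The hypotheses at a straight boundary piece. -/
structure Edge (s : ℝ) (f : ℂ → ℂ) : Prop where
  pos : 0 < s
  diff : DifferentiableOn ℂ f (Box (2 * s))
  inj : InjOn f (Box (2 * s))
  lt_one : ∀ z ∈ Box (2 * s), ‖f z‖ < 1
  half : ∀ z ∈ Box (2 * s), 1 / 2 < ‖f z‖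
  edge : ∀ ε > 0, ∃ η > 0, ∀ z ∈ Box (2 * s), z.im < η → 1 - ε < ‖f z‖

variable {s : ℝ} {f : ℂ → ℂ}

/-- The modulus approaches one linearly. -/
lemma Edge.decay (H : Edge s f) {z : ℂ} (hz : z ∈ Box s) : 1 - ‖f z‖ ≤ 2 * z.im / s := by
  obtain ⟨hz1, hz2, hz3⟩ := hz
  have hs := H.pos
  rw [abs_lt] at hz1
  refine le_of_forall_pos_le_add fun ε hε => ?_
  set e := min ε (1 / 2)
  have he : 0 < e := lt_min hε (by norm_num)
  have he2 : e ≤ 1 / 2 := min_le_right _ _
  obtain ⟨η0, hη0, hedge⟩ := H.edge e he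
  set η := min η0 z.im / 2 with hη
  have hηp : 0 < η := by positivity
  have hη1 : η < η0 := by rw [hη]; linarith [min_le_left η0 z.im]
  have hη2 : η < z.im := by rw [hη]; linarith [min_le_right η0 z.im]
  set c : ℂ := (z.re : ℂ) + (η : ℂ) * I
  set M := Real.log 2 with hM
  have hM0 : 0 < M := Real.log_pos one_lt_two
  have hM1 : M ≤ 1 := by linarith [Real.log_two_lt_d9]
  let P : ℂ → ℂ := fun w => ((w - c) / (s : ℂ)) ^ 2 - 2 * I * ((w - c) / (s : ℂ))
  let G : ℂ → ℂ := fun w => exp (-(M : ℂ) * P w) / f w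
  set R : Set ℂ := Ioo (z.re - s) (z.re + s) ×ℂ Ioo η (η + s)
  set Rc : Set ℂ := Icc (z.re - s) (z.re + s) ×ℂ Icc η (η + s) with hRc
  have hcl : closure R = Rc := by
    rw [closure_reProdIm, closure_Ioo (by linarith), closure_Ioo (by linarith)]
  have hsub : ∀ w ∈ Rc, w ∈ Box (2 * s) := by
    rintro w ⟨⟨h1, h2⟩, h3, h4⟩
    exact ⟨abs_lt.2 ⟨by linarith, by linarith⟩, by linarith, by linarith⟩
  have hne : ∀ w ∈ Rc, f w ≠ 0 := fun w hw h => by
    have := H.half w (hsub w hw)
    rw [h, norm_zero] at this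
    linarith
  have hnorm : ∀ w, ‖G w‖ = Real.exp (-M * (((w.re - z.re) / s) ^ 2 - ((w.im - η) / s) ^ 2
      + 2 * ((w.im - η) / s))) / ‖f w‖ := by
    intro w
    simp only [G, norm_div, Complex.norm_exp]
    congr 2
    simp [P, c, sq]
  have hGd : DiffContOnCl ℂ G R := by
    have hd : DifferentiableOn ℂ G Rc := by
      have hd2 := H.diff.mono hsub
      exact (Differentiable.differentiableOn (by simp only [P]; fun_prop)).fun_div hd2 hne
    exact ⟨hd.mono (hcl ▸ subset_closure), hcl.symm ▸ hd.continuousOn⟩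
  have hbd : ∀ w ∈ frontier R, ‖G w‖ ≤ (1 - e)⁻¹ := by
    intro w hw
    have hwc : w ∈ Rc := hcl ▸ frontier_subset_closure hw
    have h12 := H.half w (hsub w hwc)
    have h1e : 0 < 1 - e := by linarith
    have hR : IsOpen R := isOpen_Ioo.reProdIm isOpen_Ioo
    rw [hR.frontier_eq] at hw
    have hnot := hw.2
    obtain ⟨⟨h1, h2⟩, h3, h4⟩ := hwc
    rw [hnorm, div_le_iff₀ (by linarith)]
    set a := (w.re - z.re) / s
    set b := (w.im - η) / s
    have hb0 : 0 ≤ b := div_nonneg (by linarith) hs.le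
    have hb1 : b ≤ 1 := (div_le_one hs).2 (by linarith)
    by_cases hb : w.im = η
    · have hb' : b = 0 := by simp [b, hb]
      have h1' : Real.exp (-M * (a ^ 2 - b ^ 2 + 2 * b)) ≤ 1 := by
        rw [Real.exp_le_one_iff, hb']
        nlinarith [sq_nonneg a]
      have h2' : 1 ≤ (1 - e)⁻¹ * ‖f w‖ := by
        rw [inv_mul_eq_div, one_le_div h1e]
        exact (hedge w (hsub w ⟨⟨h1, h2⟩, h3, h4⟩) (hb ▸ hη1)).le
      linarith
    · have hbig : 1 ≤ a ^ 2 - b ^ 2 + 2 * b := by
        by_contra hc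
        refine hnot ⟨⟨lt_of_le_of_ne h1 ?_, lt_of_le_of_ne h2 ?_⟩,
          lt_of_le_of_ne h3 (Ne.symm hb), lt_of_le_of_ne h4 ?_⟩
        · intro h
          have : a = -1 := by simp only [a, ← h]; field_simp; ring
          exact hc (by rw [this]; nlinarith)
        · intro h
          have : a = 1 := by simp only [a, h]; field_simp; ring
          exact hc (by rw [this]; nlinarith)
        · intro h
          have : b = 1 := by simp only [b, h]; field_simp; ring
          exact hc (by rw [this]; nlinarith [sq_nonneg a])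
      have h1' : Real.exp (-M * (a ^ 2 - b ^ 2 + 2 * b)) ≤ 1 / 2 := by
        refine (Real.exp_le_exp.2 (show _ ≤ -M by nlinarith)).trans ?_
        rw [Real.exp_neg, hM, Real.exp_log two_pos]
        norm_num
      have h2' : 1 ≤ (1 - e)⁻¹ := one_le_inv_iff₀.2 ⟨h1e, by linarith⟩
      nlinarith
  have hzc : z ∈ closure R := hcl.symm ▸ ⟨⟨by linarith, by linarith⟩, hη2.le, by linarith⟩
  have hb : ‖G z‖ ≤ (1 - e)⁻¹ :=
    Complex.norm_le_of_forall_mem_frontier_norm_le
      ((Metric.isBounded_Ioo _ _).reProdIm (Metric.isBounded_Ioo _ _)) hGd hbd hzc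
  have hzRc : z ∈ Rc := hcl ▸ hzc
  rw [hnorm, sub_self, zero_div, div_le_iff₀ (norm_pos_iff.2 (hne z hzRc)), inv_mul_eq_div,
    le_div_iff₀ (by linarith : (0 : ℝ) < 1 - e)] at hb
  set b := (z.im - η) / s
  have hbz : b ≤ z.im / s := (div_le_div_iff_of_pos_right hs).2 (by linarith)
  have hb0 : 0 ≤ b := div_nonneg (by linarith) hs.le
  have h3 : 1 - 2 * (z.im / s) ≤ Real.exp (-M * (0 ^ 2 - b ^ 2 + 2 * b)) := by
    refine le_trans ?_ (Real.add_one_le_exp _)
    nlinarith [mul_nonneg hM0.le (sq_nonneg b)]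
  have hnn : 0 ≤ z.im / s := by positivity
  have : 2 * z.im / s = 2 * (z.im / s) := by ring
  have h4 := mul_le_mul_of_nonneg_right h3 (show 0 ≤ 1 - e by linarith)
  have h5 : 0 ≤ z.im / s * e := by positivity
  have h6 : e ≤ ε := min_le_left _ _
  rw [show (1 - 2 * (z.im / s)) * (1 - e) = 1 - 2 * (z.im / s) - e + 2 * (z.im / s * e) by ring]
    at h4
  clear_value e b M
  generalize Real.exp (-M * (0 ^ 2 - b ^ 2 + 2 * b)) = X at *
  generalize z.im / s = Y at *
  nlinarith

/-- The derivative is bounded up to the edge. -/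
lemma Edge.deriv_le (H : Edge s f) {z : ℂ} (hz : z ∈ Box s) : ‖deriv f z‖ ≤ 4 / s := by
  have hdec := H.decay hz
  obtain ⟨hz1, hz2, hz3⟩ := hz
  have hs := H.pos
  have hb : ball z z.im ⊆ Box (2 * s) := by
    intro w hw
    rw [mem_ball, dist_eq] at hw
    have h1 := (abs_re_le_norm (w - z)).trans_lt hw
    have h2 := (abs_im_le_norm (w - z)).trans_lt hw
    rw [sub_re, abs_lt] at h1
    rw [sub_im, abs_lt] at h2
    rw [abs_lt] at hz1
    exact ⟨abs_lt.2 ⟨by linarith, by linarith⟩, by linarith, by linarith⟩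
  have hzB : z ∈ Box (2 * s) := hb (mem_ball_self hz2)
  set b := f z
  have hb1 : ‖b‖ < 1 := H.lt_one z hzB
  have hd : HasDerivAt f (deriv f z) z :=
    (H.diff.differentiableAt ((isOpen_Box _).mem_nhds hzB)).hasDerivAt
  have hmz : mob b b = 0 := by simp [mob]
  have h := norm_deriv_le_div_of_mapsTo_ball (f := fun w => mob b (f w)) (c := z) (R₂ := 1)
    ((mob_differentiableOn hb1).comp (H.diff.mono hb)
      (fun w hw => mem_ball_zero_iff.2 (H.lt_one w (hb hw))))
    (fun w hw => by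
      show mob b (f w) ∈ closedBall (mob b b) 1
      rw [hmz, mem_closedBall_zero_iff]
      exact (norm_mob_lt hb1 (H.lt_one w (hb hw))).le) hz2
  have hd' : HasDerivAt (fun w => mob b (f w))
      ((1 - conj b * b) / (1 - conj b * b) ^ 2 * deriv f z) z :=
    (hasDerivAt_mob hb1 hb1.le).comp z hd
  have hpos : 0 < 1 - ‖b‖ ^ 2 := by nlinarith [norm_nonneg b]
  rw [hd'.deriv, norm_mul, norm_div, norm_pow, conj_mul', ← ofReal_one, ← ofReal_pow,
    ← ofReal_sub, norm_real, Real.norm_of_nonneg hpos.le, sq (1 - _), div_mul_cancel_left₀ hpos.ne',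
    inv_mul_eq_div, div_le_div_iff₀ hpos hz2] at h
  rw [le_div_iff₀ hs]
  have h2 : (1 - ‖b‖) * s ≤ 2 * z.im := by rwa [le_div_iff₀ hs] at hdec
  have h4 : ‖deriv f z‖ * z.im * s ≤ (1 - ‖b‖ ^ 2) * s :=
    mul_le_mul_of_nonneg_right (by linarith) hs.le
  have h5 : (1 - ‖b‖ ^ 2) * s ≤ 4 * z.im := by
    nlinarith [mul_nonneg (sub_nonneg.2 hb1.le) hs.le, sq_nonneg (1 - ‖b‖)]
  exact le_of_mul_le_mul_right (by nlinarith) hz2

/-- Continuous extension to the edge, with values on the circle, and local surjectivity there. -/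
theorem Edge.boundary (H : Edge s f) :
    ∃ g : ℂ → ℂ, Continuous g ∧ EqOn g f (Box s) ∧ (∀ x : ℝ, |x| < s → ‖g x‖ = 1) ∧
      ∀ r > 0, ∃ ρ > 0, ∀ w : ℂ, ‖w‖ ≤ 1 → dist w (g 0) < ρ →
        ∃ z : ℂ, ‖z‖ < r ∧ ‖z‖ < s ∧ 0 ≤ z.im ∧ g z = w := by
  have hs := H.pos
  have hsub : Box s ⊆ Box (2 * s) := Box_mono (by linarith)
  have hlip : LipschitzOnWith (Real.toNNReal (4 / s)) f (Box s) :=
    (convex_Box s).lipschitzOnWith_of_nnnorm_deriv_le
      (fun z hz => H.diff.differentiableAt ((isOpen_Box _).mem_nhds (hsub hz)))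
      fun z hz => by
        rw [← NNReal.coe_le_coe, coe_nnnorm, Real.coe_toNNReal _ (by positivity)]
        exact H.deriv_le hz
  obtain ⟨g, hgl, hgf⟩ := hlip.extend_finite_dimension
  have hgc : Continuous g := hgl.continuous
  have hg : EqOn g f (Box s) := hgf.symm
  have haxis : ∀ x : ℝ, |x| < s → ‖g x‖ = 1 := by
    intro x hx
    have h1 : Tendsto (fun t : ℝ => ‖g (x + t * I)‖) (𝓝[>] 0) (𝓝 ‖g x‖) := by
      have : Continuous fun t : ℝ => ‖g (x + t * I)‖ := by fun_prop
      simpa using (this.tendsto 0).mono_left nhdsWithin_le_nhds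
    refine tendsto_nhds_unique h1 ?_
    have hlow : Tendsto (fun t : ℝ => 1 - 2 * t / s) (𝓝[>] 0) (𝓝 1) := by
      have : Continuous fun t : ℝ => 1 - 2 * t / s := by fun_prop
      simpa using (this.tendsto 0).mono_left nhdsWithin_le_nhds
    refine tendsto_of_tendsto_of_tendsto_of_le_of_le' hlow tendsto_const_nhds ?_ ?_ <;>
      filter_upwards [Ioo_mem_nhdsGT hs] with t ht
    all_goals
      have hmem : ((x : ℂ) + t * I) ∈ Box s := ⟨by simpa using hx, by simpa using ht.1,
        by simpa using ht.2⟩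
      rw [hg hmem]
    · have := H.decay hmem
      simp only [add_im, ofReal_im, mul_im, I_re, mul_zero, I_im, ofReal_re, mul_one, zero_add,
        add_zero] at this
      linarith
    · exact (H.lt_one _ (hsub hmem)).le
  refine ⟨g, hgc, hg, haxis, fun r hr => ?_⟩
  set ζ := g 0 with hζ
  have hζ1 : ‖ζ‖ = 1 := by simpa using haxis 0 (by simpa using hs)
  have hζ0 : ζ ≠ 0 := norm_pos_iff.1 (by rw [hζ1]; exact one_pos)
  obtain ⟨r0, hr0, hr0s⟩ : ∃ r0 > 0, r0 ≤ min r s ∧ ∀ z : ℂ, ‖z‖ < r0 → ‖g z - ζ‖ < 1 := by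
    obtain ⟨d, hd, hdg⟩ := Metric.continuousAt_iff.1 (hgc.continuousAt (x := 0)) 1 one_pos
    refine ⟨min d (min r s), by positivity, min_le_right _ _, fun z hz => ?_⟩
    rw [← dist_eq]
    exact hdg (by rw [dist_zero_right]; exact hz.trans_le (min_le_left _ _))
  set U := ball (0 : ℂ) r0
  have hne1 : ∀ z ∈ U, -g z / ζ ≠ 1 := by
    intro z hz h
    rw [div_eq_one_iff_eq hζ0, neg_eq_iff_eq_neg] at h
    have := hr0s.2 z (mem_ball_zero_iff.1 hz)
    rw [h, show -ζ - ζ = -(2 * ζ) by ring, norm_neg, norm_mul, hζ1] at this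
    norm_num at this
  have hUb : ∀ z ∈ U, 0 < z.im → z ∈ Box s := by
    intro z hz h
    have := (mem_ball_zero_iff.1 hz).trans_le (hr0s.1.trans (min_le_right _ _))
    exact ⟨(abs_re_le_norm z).trans_lt this, h, ((le_abs_self _).trans (abs_im_le_norm z)).trans_lt this⟩
  set q : ℂ → ℂ := fun z => kinv (-g z / ζ) with hq
  have hqpos : ∀ z ∈ U, 0 < z.im → 0 < (q z).im := by
    intro z hz h
    have hn : ‖-g z / ζ‖ < 1 := by
      rw [norm_div, norm_neg, hζ1, div_one, hg (hUb z hz h)]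
      exact H.lt_one _ (hsub (hUb z hz h))
    rw [hq, kinv_im]
    refine div_pos ?_ (normSq_pos.2 (sub_ne_zero.2 (Ne.symm (hne1 z hz))))
    rw [normSq_eq_norm_sq]
    nlinarith [norm_nonneg (-g z / ζ)]
  have hqreal : ∀ z ∈ U, z.im = 0 → (q z).im = 0 := by
    intro z hz h
    have hzr : z = (z.re : ℂ) := Complex.ext rfl (by simp [h])
    have hn : ‖-g z / ζ‖ = 1 := by
      rw [norm_div, norm_neg, hζ1, div_one, hzr]
      exact haxis _ (((abs_re_le_norm z).trans_lt (mem_ball_zero_iff.1 hz)).trans_le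
        (hr0s.1.trans (min_le_right _ _)))
    rw [hq, kinv_im, normSq_eq_norm_sq, hn]
    simp
  have hQd : DifferentiableOn ℂ (refl q) U := by
    refine refl_differentiableOn isOpen_ball (fun z hz => by simpa [U] using hz) ?_ ?_ hqreal
    · intro z hz
      have hc : ContinuousAt (fun w => -g w / ζ) z := hgc.continuousAt.neg.div_const _
      exact (ContinuousAt.comp (g := kinv) (f := fun w => -g w / ζ) (continuousAt_kinv (hne1 z hz.1)) hc).continuousWithinAt
    · intro z hz h
      have hzb := hUb z hz h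
      have hgd : DifferentiableAt ℂ g z :=
        (H.diff.differentiableAt ((isOpen_Box _).mem_nhds (hsub hzb))).congr_of_eventuallyEq
          (Filter.eventuallyEq_of_mem ((isOpen_Box s).mem_nhds hzb) hg)
      have hw := hgd.neg.div_const ζ
      exact (((differentiableAt_const _).add hw).const_mul I).div
        ((differentiableAt_const _).sub hw) (sub_ne_zero.2 (Ne.symm (hne1 z hz)))
  have hq0 : refl q 0 = 0 := by
    rw [refl_of_nonneg (by simp), hq]
    show kinv (-g 0 / ζ) = 0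
    rw [← hζ, neg_div, div_self hζ0, kinv]
    simp
  have himg : refl q '' U ∈ 𝓝 (0 : ℂ) := by
    rcases (hQd.analyticAt (ball_mem_nhds 0 hr0)).eventually_constant_or_nhds_le_map_nhds with h | h
    · exfalso
      rw [hq0] at h
      obtain ⟨d, hd, hdq⟩ := Metric.mem_nhds_iff.1 h
      set t := min d r0 / 2
      have ht : 0 < t := by positivity
      have hz : ((t : ℂ) * I) ∈ U ∧ ((t : ℂ) * I) ∈ ball (0 : ℂ) d := by
        simp only [U, mem_ball_zero_iff, norm_mul, norm_real, norm_I, mul_one,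
          Real.norm_of_nonneg ht.le]
        constructor <;> simp only [t] <;> linarith [min_le_left d r0, min_le_right d r0]
      have hi : 0 < ((t : ℂ) * I).im := by simpa using ht
      have := hqpos _ hz.1 hi
      have he : refl q ((t : ℂ) * I) = 0 := hdq hz.2
      rw [refl_of_nonneg hi.le] at he
      rw [he] at this
      simp at this
    · rw [hq0] at h
      exact h (image_mem_map (ball_mem_nhds 0 hr0))
  have hcont : ContinuousAt (fun w => kinv (-w / ζ)) ζ :=
    (continuousAt_kinv (by rw [neg_div, div_self hζ0]; norm_num)).comp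
      (continuousAt_id.neg.div_const _)
  have h0 : kinv (-ζ / ζ) = 0 := by rw [neg_div, div_self hζ0, kinv]; simp
  have hne : ∀ᶠ w in 𝓝 ζ, -w / ζ ≠ 1 :=
    (continuousAt_id.neg.div_const ζ).eventually_ne (by simp [neg_div, div_self hζ0]; norm_num)
  obtain ⟨ρ, hρ, hρs⟩ := Metric.mem_nhds_iff.1
    (inter_mem (hcont.preimage_mem_nhds (t := refl q '' U) (by rw [h0]; exact himg)) hne)
  refine ⟨ρ, hρ, fun w hw1 hwd => ?_⟩
  obtain ⟨⟨z, hz, he⟩, hwne⟩ := hρs (mem_ball.2 hwd)
  have hn : ‖-w / ζ‖ ≤ 1 := by rwa [norm_div, norm_neg, hζ1, div_one]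
  have hv : 0 ≤ (kinv (-w / ζ)).im := kinv_im_nonneg hn
  have hz' := mem_ball_zero_iff.1 hz
  rcases lt_or_ge z.im 0 with hneg | hge
  · exfalso
    rw [refl_of_neg hneg] at he
    have := hqpos (conj z) (by simpa [U] using hz) (by simpa using hneg)
    dsimp only at he
    rw [← he, conj_im] at hv
    linarith
  · refine ⟨z, hz'.trans_le (hr0s.1.trans (min_le_left _ _)),
      hz'.trans_le (hr0s.1.trans (min_le_right _ _)), hge, ?_⟩
    rw [refl_of_nonneg hge] at he
    have h2 := congrArg kap he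
    rw [hq, kap_kinv (hne1 z hz), kap_kinv hwne, neg_div, neg_div, neg_inj,
      div_left_inj' hζ0] at h2
    exact h2

end Vale.Agent.P116
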