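import Vale.Agent.P116.Sym.Riemann
import Vale.Agent.P116.Sym.Local

/-!
P116: a symmetric domain with simply connected upper half is conformally a Denjoy domain.
-/

open Complex Metric Filter Set Topology
open scoped Real ComplexConjugate

namespace Vale.Agent.P116

/-- A conformal map of `V` onto the unit disc. -/
structure Onto (V : Set ℂ) (φ : ℂ → ℂ) : Prop where
  isOpen : IsOpen V
  upper : ∀ z ∈ V, 0 < z.im
  diff : DifferentiableOn ℂ φ V
  inj : InjOn φ V
  image : φ '' V = ball 0 1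

variable {V : Set ℂ} {φ : ℂ → ℂ}

lemma Onto.lt_one (H : Onto V φ) {z : ℂ} (hz : z ∈ V) : ‖φ z‖ < 1 :=
  mem_ball_zero_iff.1 (H.image.subset (mem_image_of_mem φ hz))

/-- Properness: a compact sublevel set. -/
lemma Onto.sublevel (H : Onto V φ) {r : ℝ} (hr : r < 1) :
    ∃ C, IsCompact C ∧ C ⊆ V ∧ ∀ z ∈ V, ‖φ z‖ ≤ r → z ∈ C := by
  have hψ : DifferentiableOn ℂ (Function.invFunOn φ V) (ball 0 1) := by
    rw [← H.image]
    exact inv_differentiableOn H.isOpen H.diff H.inj fun x hx => H.inj.leftInvOn_invFunOn hx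
  have hsub : closedBall (0 : ℂ) r ⊆ ball 0 1 := closedBall_subset_ball hr
  refine ⟨Function.invFunOn φ V '' closedBall 0 r,
    (isCompact_closedBall 0 r).image_of_continuousOn (hψ.continuousOn.mono hsub), ?_,
    fun z hz h => ⟨φ z, mem_closedBall_zero_iff.2 h, H.inj.leftInvOn_invFunOn hz⟩⟩
  rintro _ ⟨w, hw, rfl⟩
  exact Function.invFunOn_mem (H.image.symm.subset (hsub hw))

/-- Edge data in a chart of the boundary. -/
lemma Onto.edge (H : Onto V φ) {T T' : ℂ → ℂ} {s0 : ℝ} (hs0 : 0 < s0)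
    (hTV : MapsTo T (Box s0) V) (hTd : DifferentiableOn ℂ T (Box s0))
    (hTi : ∀ z ∈ Box s0, T' (T z) = z) (hT'c : ContinuousOn T' {z | 0 < z.im})
    (hT'm : ∀ z : ℂ, 0 < z.im → 0 < (T' z).im) :
    ∃ s, Edge s (φ ∘ T) ∧ 2 * s ≤ s0 := by
  have key : ∀ r < 1, ∃ η > 0, ∀ z ∈ Box s0, z.im < η → r < ‖φ (T z)‖ := by
    intro r hr
    obtain ⟨C, hC, hCV, hmem⟩ := H.sublevel hr
    rcases (T' '' C).eq_empty_or_nonempty with h0 | hne
    · refine ⟨1, one_pos, fun z hz _ => ?_⟩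
      by_contra hc
      have := mem_image_of_mem T' (hmem _ (hTV hz) (not_lt.1 hc))
      rw [h0] at this
      exact this
    obtain ⟨m, hm, hmin⟩ :=
      (hC.image_of_continuousOn (hT'c.mono fun z hz => H.upper z (hCV hz))).exists_isMinOn hne
        continuous_im.continuousOn
    obtain ⟨c, hc, rfl⟩ := hm
    refine ⟨(T' c).im, hT'm c (H.upper c (hCV hc)), fun z hz hzi => ?_⟩
    by_contra hcon
    have hle : (T' c).im ≤ (T' (T z)).im :=
      hmin (mem_image_of_mem T' (hmem _ (hTV hz) (not_lt.1 hcon)))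
    rw [hTi z hz] at hle
    linarith
  obtain ⟨η, hη, hhalf⟩ := key (1 / 2) (by norm_num)
  set s := min s0 η / 2 with hs
  have hss : Box (2 * s) ⊆ Box s0 := Box_mono (by rw [hs]; linarith [min_le_left s0 η])
  refine ⟨s, ⟨by positivity, H.diff.comp (hTd.mono hss) (hTV.mono_left hss), ?_,
    fun z hz => H.lt_one (hTV (hss hz)),
    fun z hz => hhalf z (hss hz) (hz.2.2.trans_le (by rw [hs]; linarith [min_le_right s0 η])), ?_⟩,
    by rw [hs]; linarith [min_le_left s0 η]⟩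
  · intro z hz w hw he
    rw [← hTi z (hss hz), H.inj (hTV (hss hz)) (hTV (hss hw)) he, hTi w (hss hw)]
  · intro ε hε
    obtain ⟨η', hη', h⟩ := key (1 - ε) (by linarith)
    exact ⟨η', hη', fun z hz hzi => h z (hss hz) hzi⟩

lemma im_neg_inv (z : ℂ) : (-z⁻¹).im = z.im / normSq z := by
  rw [neg_im, inv_im, neg_div, neg_neg]

/-- A symmetric domain with simply connected upper half is conformally the complement of a compact
subset of the line. -/
theorem to_denjoy {K : Set ℂ} (hK : IsCompact K) (hsym : ∀ z ∈ K, conj z ∈ K)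
    (hsc : IsSimplyConnected (Kᶜ ∩ {z : ℂ | 0 < z.im})) :
    ∃ (K' : Set ℂ) (F : ℂ → ℂ), IsCompact K' ∧ (∀ z ∈ K', z.im = 0) ∧
      DifferentiableOn ℂ F Kᶜ ∧ BijOn F Kᶜ K'ᶜ ∧ Tendsto F (cocompact ℂ) (cocompact ℂ) := by
  set V : Set ℂ := Kᶜ ∩ {z : ℂ | 0 < z.im} with hV
  have hVo : IsOpen V :=
    hK.isClosed.isOpen_compl.inter (isOpen_lt continuous_const continuous_im)
  obtain ⟨φ, hd, hi, him⟩ := riemann_sc hVo hsc fun z hz => hz.2
  have H : Onto V φ := ⟨hVo, fun z hz => hz.2, hd, hi, him⟩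
  obtain ⟨M, hM⟩ := hK.isBounded.exists_norm_le
  set L := max M 0 + 1 with hL
  have hL0 : 0 < L := by positivity
  have houtside : ∀ z : ℂ, L ≤ ‖z‖ → z ∈ Kᶜ := fun z hz hzK => by
    linarith [hM z hzK, le_max_left M 0]
  -- the chart at infinity
  have hbox : ∀ z ∈ Box (1 / (2 * L)), -z⁻¹ ∈ V := by
    intro z hz
    have hz0 : z ≠ 0 := fun h => by simp [h, Box] at hz
    refine ⟨houtside _ ?_, ?_⟩
    · rw [norm_neg, norm_inv, le_inv_comm₀ hL0 (norm_pos_iff.2 hz0)]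
      have h1 := norm_le_abs_re_add_abs_im z
      rw [abs_of_pos hz.2.1] at h1
      have : 1 / (2 * L) + 1 / (2 * L) = L⁻¹ := by field_simp; norm_num
      linarith [hz.1, hz.2.2]
    · show 0 < (-z⁻¹).im
      rw [im_neg_inv]
      exact div_pos hz.2.1 (normSq_pos.2 hz0)
  obtain ⟨σ, hσ, hσL⟩ := H.edge (T := fun z => -z⁻¹) (T' := fun z => -z⁻¹)
    (s0 := 1 / (2 * L)) (by positivity) hbox
    (fun z hz => ((differentiableAt_inv fun h => by simp [h, Box] at hz).neg).differentiableWithinAt)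
    (fun z _ => by simp [inv_neg])
    (fun z hz => ((continuousAt_inv₀ fun h => by
      rw [mem_ofPred_eq, h, zero_im] at hz
      exact lt_irrefl _ hz).neg).continuousWithinAt)
    (fun z hz => by
      rw [im_neg_inv]
      exact div_pos hz (normSq_pos.2 fun h => by rw [h, zero_im] at hz; exact lt_irrefl _ hz))
  obtain ⟨gi, hgic, hgif, hgix, hgis⟩ := hσ.boundary
  -- limits at real points of the domain
  have hloc : ∀ x : ℝ, (x : ℂ) ∈ Kᶜ → ∃ c : ℂ, ‖c‖ = 1 ∧ Tendsto φ (𝓝[V] (x : ℂ)) (𝓝 c) ∧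
      ∀ r > 0, ∃ ρ > 0, ∀ w : ℂ, ‖w‖ < 1 → dist w c < ρ →
        ∃ z ∈ V, dist z x < r ∧ φ z = w := by
    intro x hx
    obtain ⟨d, hd0, hdK⟩ := Metric.isOpen_iff.1 hK.isClosed.isOpen_compl _ hx
    have hbx : MapsTo (fun z => (x : ℂ) + z) (Box (d / 2)) V := by
      intro z hz
      refine ⟨hdK ?_, by simpa using hz.2.1⟩
      rw [mem_ball, dist_eq, add_sub_cancel_left]
      have h1 := norm_le_abs_re_add_abs_im z
      rw [abs_of_pos hz.2.1] at h1
      linarith [hz.1, hz.2.2]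
    obtain ⟨s, hs, hs2⟩ := H.edge (T := fun z => (x : ℂ) + z) (T' := fun z => z - (x : ℂ))
      (s0 := d / 2) (by positivity) hbx
      (differentiable_id.const_add _).differentiableOn (fun z _ => add_sub_cancel_left _ _)
      (continuous_id.sub continuous_const).continuousOn (fun z hz => by simpa using hz)
    obtain ⟨g, hgc, hgf, hgx, hgs⟩ := hs.boundary
    have hs0 := hs.pos
    refine ⟨g 0, by simpa using hgx 0 (by simpa using hs0), ?_, fun r hr => ?_⟩
    · have h1 : Tendsto (fun z : ℂ => g (z - x)) (𝓝[V] (x : ℂ)) (𝓝 (g 0)) := by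
        have := (((hgc.comp (by fun_prop : Continuous fun z : ℂ => z - (x : ℂ)))).tendsto (x : ℂ)).mono_left
          (nhdsWithin_le_nhds (s := V))
        simpa [Function.comp_def] using this
      refine h1.congr' ?_
      filter_upwards [self_mem_nhdsWithin,
        mem_nhdsWithin_of_mem_nhds (ball_mem_nhds (x : ℂ) hs0)] with z hz hzb
      rw [mem_ball, dist_eq] at hzb
      have hb : z - x ∈ Box s := ⟨(abs_re_le_norm _).trans_lt hzb, by simpa using hz.2,
        ((le_abs_self _).trans (abs_im_le_norm _)).trans_lt hzb⟩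
      rw [hgf hb]
      simp
    · obtain ⟨ρ, hρ, hsur⟩ := hgs r hr
      refine ⟨ρ, hρ, fun w hw hwd => ?_⟩
      obtain ⟨z, hzr, hzs, hzi, hze⟩ := hsur w hw.le hwd
      have hre : |z.re| < s := (abs_re_le_norm z).trans_lt hzs
      rcases hzi.lt_or_eq with hpos | h0
      · have hb : z ∈ Box s := ⟨hre, hpos, ((le_abs_self _).trans (abs_im_le_norm z)).trans_lt hzs⟩
        refine ⟨(x : ℂ) + z, hbx (Box_mono ?_ hb), by simpa [dist_eq] using hzr, ?_⟩
        · linarith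
        · rw [← hze, hgf hb]; rfl
      · have := hgx z.re hre
        rw [show ((z.re : ℝ) : ℂ) = z from Complex.ext rfl (by simp [← h0]), hze] at this
        linarith
  -- normalisation
  set c := gi 0 with hc
  have hc1 : ‖c‖ = 1 := by simpa using hgix 0 (by simpa using hσ.pos)
  have hc0 : c ≠ 0 := norm_pos_iff.1 (by rw [hc1]; exact one_pos)
  set S : Set ℂ := Kᶜ ∩ {z : ℂ | 0 ≤ z.im} with hS
  have hreal : ∀ z ∈ S, z ∉ V → z = (z.re : ℂ) ∧ (z.re : ℂ) ∈ Kᶜ := by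
    intro z hz hzV
    have h0 : z.im = 0 := le_antisymm (not_lt.1 fun h => hzV ⟨hz.1, h⟩) hz.2
    have e : z = (z.re : ℂ) := Complex.ext rfl (by simp [h0])
    exact ⟨e, e ▸ hz.1⟩
  have hSc : S ⊆ closure V := by
    intro z hz
    rw [mem_closure_iff_nhdsWithin_neBot]
    have h : Tendsto (fun t : ℝ => z + (t : ℂ) * I) (𝓝[>] 0) (𝓝[V] z) := by
      have hct : Tendsto (fun t : ℝ => z + (t : ℂ) * I) (𝓝[>] 0) (𝓝 z) := by
        have : Continuous fun t : ℝ => z + (t : ℂ) * I := by fun_prop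
        simpa using (this.tendsto 0).mono_left nhdsWithin_le_nhds
      refine tendsto_nhdsWithin_iff.2 ⟨hct, ?_⟩
      filter_upwards [self_mem_nhdsWithin, hct (hK.isClosed.isOpen_compl.mem_nhds hz.1)]
        with t ht ht'
      have h1 : 0 ≤ z.im := hz.2
      exact ⟨ht', by simp only [mem_ofPred_eq, add_im, mul_im, ofReal_re, ofReal_im, I_re, I_im,
        mul_one, mul_zero, add_zero]; linarith [mem_Ioi.1 ht]⟩
    exact h.neBot
  set Φ := extendFrom V φ with hΦ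
  have hΦV : ∀ z ∈ V, Φ z = φ z := fun z hz =>
    extendFrom_eq (subset_closure hz) (hd.continuousOn z hz)
  have hlim : ∀ z ∈ S, ∃ y, Tendsto φ (𝓝[V] z) (𝓝 y) := by
    intro z hz
    by_cases hzV : z ∈ V
    · exact ⟨φ z, hd.continuousOn z hzV⟩
    · obtain ⟨e, hx⟩ := hreal z hz hzV
      obtain ⟨y, -, hy, -⟩ := hloc _ hx
      exact ⟨y, e ▸ hy⟩
  have hΦc : ContinuousOn Φ S := continuousOn_extendFrom hSc hlim
  have hΦR : ∀ x : ℝ, (x : ℂ) ∈ Kᶜ → ‖Φ x‖ = 1 ∧ ∀ r > 0, ∃ ρ > 0, ∀ w : ℂ, ‖w‖ < 1 →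
      dist w (Φ x) < ρ → ∃ z ∈ V, dist z x < r ∧ φ z = w := by
    intro x hx
    obtain ⟨y, hy1, hy, hys⟩ := hloc x hx
    have e : Φ x = y := extendFrom_eq (hSc ⟨hx, by simp⟩) hy
    rw [e]
    exact ⟨hy1, hys⟩
  have hΦle : ∀ z ∈ S, ‖Φ z‖ ≤ 1 := by
    intro z hz
    by_cases hzV : z ∈ V
    · rw [hΦV z hzV]; exact (H.lt_one hzV).le
    · obtain ⟨e, hx⟩ := hreal z hz hzV
      rw [e]; exact (hΦR _ hx).1.le
  -- two boundary values are never equal
  have hmeet : ∀ ζ : ℂ, ‖ζ‖ = 1 → ∀ ρ₁ > 0, ∀ ρ₂ > 0,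
      ∃ w : ℂ, ‖w‖ < 1 ∧ dist w ζ < ρ₁ ∧ dist w ζ < ρ₂ := by
    intro ζ hζ ρ₁ h1 ρ₂ h2
    set t := min 1 (min ρ₁ ρ₂) / 2 with ht
    have ht0 : 0 < t := by positivity
    have ht1 : t < 1 := by rw [ht]; linarith [min_le_left 1 (min ρ₁ ρ₂)]
    refine ⟨((1 - t : ℝ) : ℂ) * ζ, ?_, ?_, ?_⟩
    · rw [norm_mul, norm_real, hζ, mul_one, Real.norm_of_nonneg (by linarith)]; linarith
    all_goals
      rw [dist_eq, show ((1 - t : ℝ) : ℂ) * ζ - ζ = -((t : ℂ) * ζ) by push_cast; ring, norm_neg,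
        norm_mul, norm_real, hζ, mul_one, Real.norm_of_nonneg ht0.le, ht]
      linarith [min_le_right 1 (min ρ₁ ρ₂), min_le_left ρ₁ ρ₂, min_le_right ρ₁ ρ₂]
  have hinjR : ∀ x : ℝ, (x : ℂ) ∈ Kᶜ → ∀ y : ℝ, (y : ℂ) ∈ Kᶜ → Φ x = Φ y → x = y := by
    intro x hx y hy he
    by_contra hne
    obtain ⟨h1, hsx⟩ := hΦR x hx
    obtain ⟨-, hsy⟩ := hΦR y hy
    set r := |x - y| / 2 with hr
    have hr0 : 0 < r := by have := abs_pos.2 (sub_ne_zero.2 hne); positivity
    obtain ⟨ρ₁, hρ₁, hs1⟩ := hsx r hr0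
    obtain ⟨ρ₂, hρ₂, hs2⟩ := hsy r hr0
    obtain ⟨w, hw, hw1, hw2⟩ := hmeet _ h1 ρ₁ hρ₁ ρ₂ hρ₂
    obtain ⟨z, hz, hzd, hze⟩ := hs1 w hw hw1
    obtain ⟨z', hz', hzd', hze'⟩ := hs2 w hw (he ▸ hw2)
    rw [← hi hz hz' (hze.trans hze'.symm)] at hzd'
    have := dist_triangle_left (x : ℂ) y z
    rw [dist_eq ((x : ℂ)) y, ← ofReal_sub, norm_real, Real.norm_eq_abs] at this
    linarith
  have hinf : ∀ z : ℂ, ‖z‖ < σ → z ≠ 0 → 0 ≤ z.im →
      -z⁻¹ ∈ S ∧ gi z = Φ (-z⁻¹) := by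
    intro z hz hz0 hzi
    have hzS : ∀ u : ℂ, u ≠ 0 → ‖u‖ < σ → 0 ≤ u.im → -u⁻¹ ∈ S := by
      intro u hu0 hu hui
      refine ⟨houtside _ ?_, ?_⟩
      · rw [norm_neg, norm_inv, le_inv_comm₀ hL0 (norm_pos_iff.2 hu0)]
        have : (1 : ℝ) / (2 * L) ≤ L⁻¹ := by
          rw [one_div]; exact inv_anti₀ hL0 (by linarith)
        linarith [hσ.pos]
      · show 0 ≤ (-u⁻¹).im
        rw [im_neg_inv]
        exact div_nonneg hui (normSq_nonneg u)
    refine ⟨hzS z hz0 hz hzi, ?_⟩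
    set U := {u : ℂ | ‖u‖ < σ ∧ 0 < u.im}
    have hzU : (𝓝[U] z).NeBot := by
      have h : Tendsto (fun t : ℝ => z + (t : ℂ) * I) (𝓝[>] 0) (𝓝[U] z) := by
        have hct : Tendsto (fun t : ℝ => z + (t : ℂ) * I) (𝓝[>] 0) (𝓝 z) := by
          have : Continuous fun t : ℝ => z + (t : ℂ) * I := by fun_prop
          simpa using (this.tendsto 0).mono_left nhdsWithin_le_nhds
        refine tendsto_nhdsWithin_iff.2 ⟨hct, ?_⟩
        filter_upwards [self_mem_nhdsWithin,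
          hct ((isOpen_lt continuous_norm continuous_const).mem_nhds hz)] with t ht ht'
        exact ⟨ht', by simp only [add_im, mul_im, ofReal_re, ofReal_im, I_re, I_im,
          mul_one, mul_zero, add_zero]; linarith [mem_Ioi.1 ht]⟩
      exact h.neBot
    have hA : Tendsto gi (𝓝[U] z) (𝓝 (gi z)) := (hgic.tendsto z).mono_left nhdsWithin_le_nhds
    have hB : Tendsto (fun u : ℂ => Φ (-u⁻¹)) (𝓝[U] z) (𝓝 (Φ (-z⁻¹))) :=
      (hΦc _ (hzS z hz0 hz hzi)).tendsto.comp (tendsto_nhdsWithin_iff.2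
        ⟨((continuousAt_inv₀ hz0).neg).tendsto.mono_left nhdsWithin_le_nhds, by
          filter_upwards [self_mem_nhdsWithin] with u hu
          exact hzS u (fun h => by simp [U, h] at hu) hu.1 hu.2.le⟩)
    refine tendsto_nhds_unique hA (hB.congr' ?_)
    filter_upwards [self_mem_nhdsWithin] with u hu
    have hb : u ∈ Box σ := ⟨(abs_re_le_norm u).trans_lt hu.1, hu.2,
      ((le_abs_self _).trans (abs_im_le_norm u)).trans_lt hu.1⟩
    rw [hgif hb, Function.comp_apply]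
    exact hΦV _ (hbox u (Box_mono (by linarith [hσ.pos]) hb))
  have hΦc1 : ∀ z ∈ S, Φ z / c ≠ 1 := by
    intro z hz h
    rw [div_eq_one_iff_eq hc0] at h
    by_cases hzV : z ∈ V
    · rw [hΦV z hzV] at h
      linarith [H.lt_one hzV, congrArg norm h]
    obtain ⟨e, hx⟩ := hreal z hz hzV
    obtain ⟨-, hsx⟩ := hΦR _ hx
    obtain ⟨ρ₁, hρ₁, hs1⟩ := hsx 1 one_pos
    obtain ⟨ρ₂, hρ₂, hs2⟩ := hgis (min σ (1 / (|z.re| + 1))) (lt_min hσ.pos (by positivity))
    obtain ⟨w, hw, hw1, hw2⟩ := hmeet c hc1 ρ₁ hρ₁ ρ₂ hρ₂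
    obtain ⟨u, hu, hud, hue⟩ := hs1 w hw (by rw [← e, h]; exact hw1)
    obtain ⟨v, hv, -, hvi, hve⟩ := hs2 w hw.le hw2
    rw [lt_min_iff] at hv
    have hv0 : v ≠ 0 := fun h0 => by rw [h0, ← hc] at hve; rw [← hve, hc1] at hw; linarith
    obtain ⟨hvS, hvΦ⟩ := hinf v hv.1 hv0 hvi
    have hvV : -v⁻¹ ∈ V := by
      by_contra hc'
      obtain ⟨e', hx'⟩ := hreal _ hvS hc'
      have := (hΦR _ hx').1
      rw [← e', ← hvΦ, hve] at this
      linarith
    have he' : u = -v⁻¹ := hi hu hvV (by rw [hue, ← hΦV _ hvV, ← hvΦ, hve])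
    have h1 : ‖u‖ < |z.re| + 1 := by
      have := dist_triangle u (z.re : ℂ) 0
      rw [dist_zero_right, dist_zero_right, norm_real, Real.norm_eq_abs] at this
      linarith
    rw [he', norm_neg, norm_inv, inv_lt_iff_one_lt_mul₀ (norm_pos_iff.2 hv0)] at h1
    have h2 := hv.2
    rw [lt_div_iff₀ (by positivity)] at h2
    linarith
  -- the map
  set q : ℂ → ℂ := fun z => kinv (Φ z / c) with hq
  have hn : ∀ z : ℂ, ‖Φ z / c‖ = ‖Φ z‖ := fun z => by rw [norm_div, hc1, div_one]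
  have hqpos : ∀ z ∈ V, 0 < (q z).im := by
    intro z hz
    rw [hq, kinv_im]
    refine div_pos ?_ (normSq_pos.2 (sub_ne_zero.2 (Ne.symm
      (hΦc1 z ⟨hz.1, (H.upper z hz).le⟩))))
    rw [normSq_eq_norm_sq, hn, hΦV z hz]
    nlinarith [norm_nonneg (φ z), H.lt_one hz]
  have hqreal : ∀ z ∈ S, z ∉ V → (q z).im = 0 := by
    intro z hz hzV
    obtain ⟨e, hx⟩ := hreal z hz hzV
    rw [hq, kinv_im, normSq_eq_norm_sq, hn, e, (hΦR _ hx).1]
    simp
  have hqnn : ∀ z ∈ S, 0 ≤ (q z).im := fun z hz => kinv_im_nonneg (by rw [hn]; exact hΦle z hz)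
  set F := refl q with hF
  have hFd : DifferentiableOn ℂ F Kᶜ := by
    refine refl_differentiableOn hK.isClosed.isOpen_compl
      (fun z hz h => hz (by simpa using hsym _ h)) ?_ ?_
      fun z hz h => hqreal z ⟨hz, h.ge⟩ fun h' => (h ▸ h'.2 : (0 : ℝ) < 0).false
    · intro z hz
      exact ContinuousAt.comp_continuousWithinAt (g := kinv) (continuousAt_kinv (hΦc1 z hz))
        ((hΦc z hz).div_const c)
    · intro z hz h
      have hzV : z ∈ V := ⟨hz, h⟩
      have hw : DifferentiableAt ℂ (fun w => Φ w / c) z :=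
        (((hd.differentiableAt (hVo.mem_nhds hzV)).congr_of_eventuallyEq
          (Filter.eventuallyEq_of_mem (hVo.mem_nhds hzV) hΦV)).div_const c)
      exact (((differentiableAt_const _).add hw).const_mul I).div
        ((differentiableAt_const _).sub hw) (sub_ne_zero.2 (Ne.symm (hΦc1 z ⟨hz, h.le⟩)))
  have hcj : ∀ z ∈ Kᶜ, z.im < 0 → conj z ∈ V := fun z hz h =>
    ⟨fun h' => hz (by simpa using hsym _ h'), by simpa using h⟩
  have hFneg : ∀ z ∈ Kᶜ, z.im < 0 → (F z).im < 0 := by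
    intro z hz h
    rw [hF, refl_of_neg h, conj_im, Right.neg_neg_iff]
    exact hqpos _ (hcj z hz h)
  have hqinj : InjOn q S := by
    intro a ha b hb h
    have h2 := congrArg kap h
    rw [hq, kap_kinv (hΦc1 a ha), kap_kinv (hΦc1 b hb), div_left_inj' hc0] at h2
    by_cases haV : a ∈ V <;> by_cases hbV : b ∈ V
    · rw [hΦV a haV, hΦV b hbV] at h2; exact hi haV hbV h2
    · have := hqreal b hb hbV
      rw [← h] at this
      linarith [hqpos a haV]
    · have := hqreal a ha haV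
      rw [h] at this
      linarith [hqpos b hbV]
    · obtain ⟨ea, hxa⟩ := hreal a ha haV
      obtain ⟨eb, hxb⟩ := hreal b hb hbV
      rw [ea, eb] at h2
      rw [ea, eb, hinjR _ hxa _ hxb h2]
  have hFinj : InjOn F Kᶜ := by
    intro a ha b hb h
    rcases lt_or_ge a.im 0 with haN | haP <;> rcases lt_or_ge b.im 0 with hbN | hbP
    · rw [hF, refl_of_neg haN, refl_of_neg hbN] at h
      exact (starRingEnd ℂ).injective
        (hqinj ⟨(hcj a ha haN).1, (H.upper _ (hcj a ha haN)).le⟩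
          ⟨(hcj b hb hbN).1, (H.upper _ (hcj b hb hbN)).le⟩ ((starRingEnd ℂ).injective h))
    · exfalso
      have := hFneg a ha haN
      rw [h, hF, refl_of_nonneg hbP] at this
      linarith [hqnn b ⟨hb, hbP⟩]
    · exfalso
      have := hFneg b hb hbN
      rw [← h, hF, refl_of_nonneg haP] at this
      linarith [hqnn a ⟨ha, haP⟩]
    · rw [hF, refl_of_nonneg haP, refl_of_nonneg hbP] at h
      exact hqinj ⟨ha, haP⟩ ⟨hb, hbP⟩ h
  have hup : ∀ v : ℂ, 0 < v.im → ∃ z ∈ V, q z = v := by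
    intro v hv
    have hk : ‖kap v * c‖ < 1 := by
      rw [norm_mul, hc1, mul_one]
      exact (norm_kap_lt_iff (by linarith)).2 hv
    obtain ⟨z, hz, he⟩ := H.image.symm.subset (mem_ball_zero_iff.2 hk)
    refine ⟨z, hz, ?_⟩
    rw [hq]
    show kinv (Φ z / c) = v
    rw [hΦV z hz, he, mul_div_assoc, div_self hc0, mul_one, kinv_kap (by linarith)]
  have hoff : ∀ v : ℂ, v.im ≠ 0 → v ∈ F '' Kᶜ := by
    intro v hv
    rcases lt_or_gt_of_ne hv with h | h
    · obtain ⟨z, hz, he⟩ := hup (conj v) (by simpa using h)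
      refine ⟨conj z, fun h' => hz.1 (by simpa using hsym _ h'), ?_⟩
      rw [hF, refl_of_neg (by simpa using H.upper z hz), conj_conj, he, conj_conj]
    · obtain ⟨z, hz, he⟩ := hup v h
      exact ⟨z, hz.1, by rw [hF, refl_of_nonneg (H.upper z hz).le, he]⟩
  refine ⟨(F '' Kᶜ)ᶜ, F, ?_, fun v hv => by_contra fun h => hv (hoff v h), hFd, ?_, ?_⟩
  · refine Metric.isCompact_of_isClosed_isBounded
      (isOpen_image_inj hK.isClosed.isOpen_compl hFd hFinj hK.isClosed.isOpen_compl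
        subset_rfl).isClosed_compl ?_
    obtain ⟨ρ, hρ, hsur⟩ := hgis σ hσ.pos
    refine (isBounded_closedBall (x := (0 : ℂ)) (r := 2 / ρ + 1)).subset fun v hv => ?_
    by_contra hcon
    rw [mem_closedBall_zero_iff, not_le] at hcon
    have h0 : v.im = 0 := by_contra fun h => hv (hoff v h)
    have hvr : v = (v.re : ℂ) := Complex.ext rfl (by simp [h0])
    have hk1 : ‖kap v * c‖ = 1 := by rw [norm_mul, hc1, mul_one, hvr, norm_kap_real]
    have hvI : v + I ≠ 0 := add_I_ne (by rw [h0]; norm_num)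
    have hkne : kap v ≠ 1 := kap_ne_one (by rw [h0]; norm_num)
    have hdist : dist (kap v * c) c < ρ := by
      rw [dist_eq, show kap v * c - c = -(1 - kap v) * c by ring, norm_mul, norm_neg, hc1, mul_one,
        one_sub_kap (by rw [h0]; norm_num), norm_div, norm_mul, Complex.norm_two, norm_I, mul_one,
        div_lt_iff₀ (norm_pos_iff.2 hvI)]
      have h1 : ‖v‖ ≤ ‖v + I‖ := by
        rw [hvr, norm_real, Real.norm_eq_abs]
        refine le_trans ?_ (abs_re_le_norm _)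
        simp
      have h2 : 2 / ρ < ‖v + I‖ := by linarith
      rw [div_lt_iff₀ hρ] at h2
      linarith
    obtain ⟨u, hu, -, hui, hue⟩ := hsur _ hk1.le hdist
    have hu0 : u ≠ 0 := fun h => hkne (by
      rw [h, ← hc] at hue
      exact mul_right_cancel₀ hc0 (by rw [one_mul]; exact hue.symm))
    obtain ⟨huS, huΦ⟩ := hinf u hu hu0 hui
    refine hv ⟨_, huS.1, ?_⟩
    rw [hF, refl_of_nonneg huS.2, hq]
    show kinv (Φ (-u⁻¹) / c) = v
    rw [← huΦ, hue, mul_div_assoc, div_self hc0, mul_one, kinv_kap (by rw [h0]; norm_num)]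
  · exact ⟨fun z hz => not_not.2 (mem_image_of_mem F hz), hFinj, fun v hv => not_not.1 hv⟩
  · rw [← Metric.cobounded_eq_cocompact, ← tendsto_norm_atTop_iff_cobounded]
    refine tendsto_atTop.2 fun B => ?_
    have hkey : ∃ N, L ≤ N ∧ ∀ z : ℂ, 0 ≤ z.im → N < ‖z‖ → B ≤ ‖q z‖ := by
      set ε := min (1 / 2) (1 / (|B| + 1)) with hε
      have hε0 : 0 < ε := by positivity
      obtain ⟨d, hd0, hdg⟩ := Metric.continuousAt_iff.1 (hgic.continuousAt (x := 0)) ε hε0
      refine ⟨max L (max (1 / σ) (1 / d)), le_max_left _ _, fun z hzi hzn => ?_⟩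
      simp only [max_lt_iff] at hzn
      obtain ⟨hzL, hzσ, hzd⟩ := hzn
      have hz0 : z ≠ 0 := fun h => by rw [h, norm_zero] at hzL; linarith
      have hnp : 0 < ‖z‖ := norm_pos_iff.2 hz0
      rw [div_lt_iff₀ hσ.pos] at hzσ
      rw [div_lt_iff₀ hd0] at hzd
      have hw1 : ‖-z⁻¹‖ < σ := by
        rw [norm_neg, norm_inv, inv_lt_iff_one_lt_mul₀ hnp]; linarith
      have hw2 : ‖-z⁻¹‖ < d := by
        rw [norm_neg, norm_inv, inv_lt_iff_one_lt_mul₀ hnp]; linarith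
      have hwi : 0 ≤ (-z⁻¹).im := by rw [im_neg_inv]; exact div_nonneg hzi (normSq_nonneg z)
      obtain ⟨hwS, hwΦ⟩ := hinf _ hw1 (neg_ne_zero.2 (inv_ne_zero hz0)) hwi
      rw [inv_neg, inv_inv, neg_neg] at hwS hwΦ
      have hclose := hdg (by rw [dist_zero_right]; exact hw2)
      rw [hwΦ, ← hc, dist_eq] at hclose
      set u := Φ z / c with hu
      have hd1 : ‖1 - u‖ < ε := by
        rwa [hu, one_sub_div hc0, norm_div, hc1, div_one, norm_sub_rev]
      have hd0' : 0 < ‖1 - u‖ := norm_pos_iff.2 (sub_ne_zero.2 (Ne.symm (hΦc1 z hwS)))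
      rw [hq]
      show B ≤ ‖kinv u‖
      rw [kinv, norm_div, norm_mul, norm_I, one_mul, le_div_iff₀ hd0']
      have h1 : 3 / 2 ≤ ‖1 + u‖ := by
        have := norm_sub_norm_le (2 : ℂ) (1 - u)
        rw [Complex.norm_two, show (2 : ℂ) - (1 - u) = 1 + u by ring] at this
        linarith [min_le_left (1 / 2 : ℝ) (1 / (|B| + 1))]
      have h2 : (|B| + 1) * ‖1 - u‖ ≤ 1 := by
        have := hd1.le.trans (min_le_right (1 / 2 : ℝ) (1 / (|B| + 1)))
        rw [le_div_iff₀ (by positivity)] at this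
        linarith
      nlinarith [le_abs_self B]
    obtain ⟨N, hLN, hN⟩ := hkey
    rw [Metric.cobounded_eq_cocompact]
    filter_upwards [(isCompact_closedBall (0 : ℂ) N).compl_mem_cocompact] with z hz
    rw [mem_compl_iff, mem_closedBall_zero_iff, not_le] at hz
    rw [hF]
    rcases lt_or_ge z.im 0 with h | h
    · rw [refl_of_neg h, norm_conj]
      exact hN (conj z) (by simpa using h.le) (by rwa [norm_conj])
    · rw [refl_of_nonneg h]
      exact hN z h hz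

end Vale.Agent.P116
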