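import Vale.Agent.P116.Conf

/-!
P116: the Riemann mapping theorem for simply connected parts of the upper half plane.
-/

open Complex Metric Filter Set Topology
open scoped Real ComplexConjugate

namespace Vale.Agent.P116

lemma kap_differentiableAt' {z : ℂ} (hz : -1 < z.im) : DifferentiableAt ℂ kap z :=
  (differentiableAt_id.sub_const I).div (differentiableAt_id.add_const I) (add_I_ne hz)

/-- Riemann mapping theorem for a simply connected part of the upper half plane. -/
theorem riemann_sc {V : Set ℂ} (hV : IsOpen V) (hsc : IsSimplyConnected V)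
    (hVU : ∀ z ∈ V, 0 < z.im) :
    ∃ f : ℂ → ℂ, DifferentiableOn ℂ f V ∧ InjOn f V ∧ f '' V = ball 0 1 := by
  obtain ⟨a, ha⟩ := hsc.nonempty
  have hp : IsPreconnected V := hsc.isPathConnected.isConnected.isPreconnected
  set C : Set (ℂ → ℂ) :=
    {f | DifferentiableOn ℂ f V ∧ MapsTo f V (ball 0 1) ∧ InjOn f V} with hC
  set S : Set ℝ := (fun f => ‖deriv f a‖) '' C with hS
  obtain ⟨r, hr, hsub⟩ := Metric.isOpen_iff.1 hV a ha
  have hbdd : BddAbove S := by
    refine ⟨2 / r, ?_⟩
    rintro _ ⟨f, ⟨hfd, hfm, -⟩, rfl⟩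
    refine norm_deriv_le_div_of_mapsTo_ball (hfd.mono hsub) (fun z hz => ?_) hr
    have h1 := mem_ball_zero_iff.1 (hfm (hsub hz))
    have h0 := mem_ball_zero_iff.1 (hfm ha)
    rw [mem_closedBall, dist_eq]
    linarith [norm_sub_le (f z) (f a)]
  have hker : ∀ z ∈ V, -1 < z.im := fun z hz => by linarith [hVU z hz]
  have hkd : HasDerivAt kap ((1 * (a + I) - (a - I) * 1) / (a + I) ^ 2) a :=
    ((hasDerivAt_id a).sub_const I).fun_div ((hasDerivAt_id a).add_const I)
      (add_I_ne (hker a ha))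
  have h1S : ‖deriv kap a‖ ∈ S := by
    refine ⟨kap, ⟨fun z hz => (kap_differentiableAt' (hker z hz)).differentiableWithinAt,
      fun z hz => mem_ball_zero_iff.2 ((norm_kap_lt_iff (hker z hz)).2 (hVU z hz)),
      fun z hz w hw h => ?_⟩, rfl⟩
    rw [← kinv_kap (hker z hz), h, kinv_kap (hker w hw)]
  have hk0 : 0 < ‖deriv kap a‖ := by
    rw [hkd.deriv, norm_pos_iff, ne_eq, div_eq_zero_iff]
    rintro (h | h)
    · exact two_ne_zero (α := ℂ) (by linear_combination (-I) * h + 2 * I_sq)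
    · exact add_I_ne (hker a ha) (eq_zero_of_pow_eq_zero h)
  have hM1 : ‖deriv kap a‖ ≤ sSup S := le_csSup hbdd h1S
  obtain ⟨u, -, hu, huS⟩ := exists_seq_tendsto_sSup ⟨_, h1S⟩ hbdd
  choose f hfC hfu using huS
  obtain ⟨φ, g, hφ, hgd, hgm, hlim⟩ := montel hV (fun n => (hfC n).1)
    (fun n => (hfC n).2.1.mono_right ball_subset_closedBall)
  have hga : ‖deriv g a‖ = sSup S := by
    have h1 := ((hlim.deriv (.of_forall fun n => (hfC _).1) hV).tendsto_at ha).norm
    refine tendsto_nhds_unique h1 ((hu.comp hφ.tendsto_atTop).congr fun n => ?_)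
    simp only [Function.comp_apply]
    exact (hfu _).symm
  have hga0 : deriv g a ≠ 0 := by
    intro h
    rw [h, norm_zero] at hga
    linarith
  have hne : ∃ x ∈ V, ∃ y ∈ V, g x ≠ g y := by
    by_contra hcon
    push Not at hcon
    refine hga0 ?_
    have : g =ᶠ[𝓝 a] fun _ => g a :=
      Filter.eventuallyEq_of_mem (hV.mem_nhds ha) fun x hx => hcon x hx a ha
    rw [this.deriv_eq, deriv_const]
  have hgi : InjOn g V := hurwitz hV hp (fun n => (hfC _).1) (fun n => (hfC _).2.2) hlim hne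
  have hgb : MapsTo g V (ball 0 1) := fun x hx => by
    have := interior_maximal hgm.image_subset (isOpen_image_inj hV hgd hgi hV subset_rfl)
      (mem_image_of_mem g hx)
    rwa [interior_closedBall _ one_ne_zero] at this
  have hgder : HasDerivAt g (deriv g a) a := (hgd.differentiableAt (hV.mem_nhds ha)).hasDerivAt
  have hc0 : g a = 0 := by
    by_contra hc
    have hc1 : ‖g a‖ < 1 := mem_ball_zero_iff.1 (hgb ha)
    have hmem : (fun x => mob (g a) (g x)) ∈ C :=
      ⟨(mob_differentiableOn hc1).comp hgd hgb, (mob_mapsTo hc1).comp hgb,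
        ((mob_injOn hc1).mono ball_subset_closedBall).comp hgi hgb⟩
    have hd' : HasDerivAt (fun x => mob (g a) (g x))
        ((1 - conj (g a) * g a) / (1 - conj (g a) * g a) ^ 2 * deriv g a) a :=
      (hasDerivAt_mob hc1 hc1.le).comp a hgder
    have hle := le_csSup hbdd (mem_image_of_mem (fun f => ‖deriv f a‖) hmem)
    simp only [hd'.deriv, ← hga] at hle
    rw [conj_mul', sq (1 - _), div_mul_cancel_left₀, norm_mul, norm_inv,
      ← ofReal_one, ← ofReal_pow, ← ofReal_sub, norm_real] at hle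
    · have hsq : 0 < ‖g a‖ ^ 2 := by positivity
      have hlt : ‖g a‖ ^ 2 < 1 := by nlinarith [norm_nonneg (g a)]
      rw [Real.norm_of_nonneg (by linarith), inv_mul_eq_div,
        div_le_iff₀ (by linarith)] at hle
      have : 0 < ‖deriv g a‖ := norm_pos_iff.2 hga0
      nlinarith
    · exact sub_ne_zero.2 fun h => mob_den hc1 hc1.le (by rw [conj_mul', ← h, sub_self])
  have hsurj : g '' V = ball 0 1 := by
    refine Subset.antisymm hgb.image_subset fun b hb => ?_
    by_contra hbn
    have hb1 : ‖b‖ < 1 := mem_ball_zero_iff.1 hb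
    have hb0 : b ≠ 0 := fun h => hbn ⟨a, ha, by rw [hc0, h]⟩
    set g1 : ℂ → ℂ := fun x => mob b (g x) with hg1
    have hg1ne : ∀ x ∈ V, g1 x ≠ 0 := by
      intro x hx h
      rcases div_eq_zero_iff.1 h with h | h
      · exact hbn ⟨x, hx, sub_eq_zero.1 h⟩
      · exact mob_den hb1 (mem_ball_zero_iff.1 (hgb hx)).le h
    have hg1d : DifferentiableOn ℂ g1 V := (mob_differentiableOn hb1).comp hgd hgb
    obtain ⟨s, hsc', hs0⟩ := exists_continuousOn_pow_eq (g := g1) hsc hV hg1d.continuousOn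
      (fun ⟨x, hx, he⟩ => hg1ne _ hx he) two_ne_zero
    have hssq : ∀ x ∈ V, s x ^ 2 = g1 x := fun x _ => hs0 x
    have hsne : ∀ x ∈ V, s x ≠ 0 := fun x hx h => hg1ne x hx (by rw [← hssq x hx, h]; simp)
    have hsder : ∀ x ∈ V, HasDerivAt s (deriv g1 x / (2 * s x)) x := fun x hx =>
      sqrt_hasDerivAt (hsc'.continuousAt (hV.mem_nhds hx))
        (hg1d.differentiableAt (hV.mem_nhds hx)).hasDerivAt
        (Filter.eventually_of_mem (hV.mem_nhds hx) hssq) (hsne x hx)
    have hsb : MapsTo s V (ball 0 1) := fun x hx => by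
      rw [mem_ball_zero_iff]
      have h2 : ‖s x‖ ^ 2 < 1 := by
        rw [← norm_pow, hssq x hx]
        exact norm_mob_lt hb1 (mem_ball_zero_iff.1 (hgb hx))
      exact (sq_lt_one_iff₀ (norm_nonneg _)).1 h2
    have hsi : InjOn s V := fun x hx y hy h => hgi hx hy <|
      mob_injOn hb1 (ball_subset_closedBall (hgb hx)) (ball_subset_closedBall (hgb hy))
        (show g1 x = g1 y by rw [← hssq x hx, ← hssq y hy, h])
    have hβ : ‖s a‖ < 1 := mem_ball_zero_iff.1 (hsb ha)
    have hβ2 : ‖s a‖ ^ 2 = ‖b‖ := by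
      rw [← norm_pow, hssq a ha, hg1]
      simp [mob, hc0]
    have hmem : (fun x => mob (s a) (s x)) ∈ C :=
      ⟨(mob_differentiableOn hβ).comp
        (fun x hx => (hsder x hx).differentiableAt.differentiableWithinAt) hsb,
        (mob_mapsTo hβ).comp hsb, ((mob_injOn hβ).mono ball_subset_closedBall).comp hsi hsb⟩
    have hd1 : deriv g1 a = (1 - conj b * b) * deriv g a := by
      have h : HasDerivAt g1 _ a := (hasDerivAt_mob hb1 (by rw [hc0]; simp)).comp a hgder
      rw [h.deriv, hc0]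
      simp
    have hd' : HasDerivAt (fun x => mob (s a) (s x))
        ((1 - conj (s a) * s a) / (1 - conj (s a) * s a) ^ 2 * (deriv g1 a / (2 * s a))) a :=
      (hasDerivAt_mob hβ hβ.le).comp a (hsder a ha)
    have hle := le_csSup hbdd (mem_image_of_mem (fun f => ‖deriv f a‖) hmem)
    simp only [hd'.deriv, ← hga, hd1] at hle
    set β := ‖s a‖ with hβdef
    have hβ0 : 0 < β := norm_pos_iff.2 (hsne a ha)
    have hg0 : 0 < ‖deriv g a‖ := norm_pos_iff.2 hga0
    have e1 : ‖1 - conj (s a) * s a‖ = 1 - β ^ 2 := by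
      rw [conj_mul', ← ofReal_one, ← ofReal_pow, ← ofReal_sub, norm_real,
        Real.norm_of_nonneg (by nlinarith)]
    have e2 : ‖1 - conj b * b‖ = 1 - (β ^ 2) ^ 2 := by
      rw [hβ2, conj_mul', ← ofReal_one, ← ofReal_pow, ← ofReal_sub, norm_real,
        Real.norm_of_nonneg (by nlinarith [norm_nonneg b])]
    rw [norm_mul, norm_div, norm_div, norm_mul, norm_pow, norm_mul, Complex.norm_two, e1, e2]
      at hle
    have hpos : 0 < 1 - β ^ 2 := by nlinarith
    rw [show (1 - β ^ 2) / (1 - β ^ 2) ^ 2 * ((1 - (β ^ 2) ^ 2) * ‖deriv g a‖ / (2 * β))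
      = (1 + β ^ 2) / (2 * β) * ‖deriv g a‖ by field_simp; ring] at hle
    have : 1 < (1 + β ^ 2) / (2 * β) := by
      rw [one_lt_div (by positivity)]
      nlinarith [mul_pos (sub_pos.2 hβ) (sub_pos.2 hβ)]
    nlinarith
  exact ⟨g, hgd, hgi, hsurj⟩

end Vale.Agent.P116
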